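import Crest.Agent.PVc.R8.Defs

/-! Row 8: prime sums at large height from a zero-free half plane. -/

set_option autoImplicit false

namespace Crest.Agent.R8

open Finset Filter MeasureTheory
open Crest.Agent.R5

namespace Prime

open ArithmeticFunction Complex

theorem norm_nit (n : ℕ) (t : ℝ) : ‖nit n t‖ = 1 := Complex.norm_exp_ofReal_mul_I _

theorem term_nit (f : ℕ → ℂ) (s : ℂ) (t : ℝ) :
    LSeries.term (fun n => f n * nit n t) s = LSeries.term f (s + t * I) := by
  funext n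
  rcases eq_or_ne n 0 with rfl | hn
  · simp
  · have h0 : (n : ℂ) ≠ 0 := by exact_mod_cast hn
    have h1 : nit n t = ((n : ℂ) ^ (t * I))⁻¹ := by
      rw [nit, cpow_def_of_ne_zero h0, ← Complex.exp_neg, ← natCast_log]
      congr 1; push_cast; ring
    rw [LSeries.term_of_ne_zero hn, LSeries.term_of_ne_zero hn, cpow_add _ _ h0, h1]
    field_simp

/-- `∑ Λ(n)/n²`. -/
noncomputable def K0 : ℝ := ∑' n, ‖LSeries.term (fun n => (vonMangoldt n : ℂ)) 2 n‖

theorem K0_nonneg : 0 ≤ K0 := tsum_nonneg fun _ => norm_nonneg _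

theorem norm_L_le {r : ℕ} (χ : DirichletCharacter ℂ r) {s : ℂ} (hs : s.re = 2) :
    ‖LSeries (fun n : ℕ => χ n * (vonMangoldt n : ℝ)) s‖ ≤ K0 := by
  have h1 : Summable fun n => ‖LSeries.term (fun n => (vonMangoldt n : ℂ)) 2 n‖ :=
    (LSeriesSummable_vonMangoldt (s := 2) (by norm_num)).norm
  refine tsum_of_norm_bounded h1.hasSum fun n => ?_
  refine (LSeries.norm_term_le_of_re_le_re _ (s := 2) (by simp [hs]) n).trans
    (LSeries.norm_term_le _ ?_)
  rw [norm_mul]
  exact mul_le_of_le_one_left (norm_nonneg _) (χ.norm_le_one _)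

theorem one_le_log {r : ℕ} (hr : 1 ≤ r) {x t : ℝ} (hx : 2 ≤ x) (ht : x ^ 2 ≤ |t|) :
    1 ≤ Real.log (r * |t|) ∧ Real.log (2 * x) ≤ Real.log (r * |t|) := by
  have hr' : (1 : ℝ) ≤ r := by exact_mod_cast hr
  have h1 : 2 * x ≤ r * |t| := by nlinarith
  have h2 := Real.log_le_log (by linarith) h1
  refine ⟨le_trans ?_ h2, h2⟩
  rw [Real.le_log_iff_exp_le (by linarith)]
  linarith [Real.exp_one_lt_d9]

theorem rpow_facts {x : ℝ} (hx : 1 ≤ x) : 1 ≤ x ^ (31 / 32 : ℝ) ∧ x ^ (31 / 32 : ℝ) ≤ x ∧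
    √x ≤ x ^ (31 / 32 : ℝ) ∧ x ^ (1 + 15 / 16 : ℝ) = (x ^ (31 / 32 : ℝ)) ^ 2 ∧
    x ≤ (x ^ (31 / 32 : ℝ)) ^ 2 := by
  have h : x ^ (1 + 15 / 16 : ℝ) = (x ^ (31 / 32 : ℝ)) ^ 2 := by
    rw [← Real.rpow_natCast, ← Real.rpow_mul (by linarith)]; norm_num
  refine ⟨Real.one_le_rpow hx (by norm_num), ?_, ?_, h, ?_⟩
  · simpa using Real.rpow_le_rpow_of_exponent_le hx (show (31 / 32 : ℝ) ≤ 1 by norm_num)
  · rw [Real.sqrt_eq_rpow]; exact Real.rpow_le_rpow_of_exponent_le hx (by norm_num)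
  · rw [← h]
    simpa using Real.rpow_le_rpow_of_exponent_le hx (show (1 : ℝ) ≤ 1 + 15 / 16 by norm_num)

theorem riesz_bound (hR : RieszStmt) (hC : ContourStmt) (hL : LogLStmt) :
    ∃ C : ℝ, 0 < C ∧ ∀ (r : ℕ) [NeZero r] (χ : DirichletCharacter ℂ r) (x t u : ℝ), 2 ≤ x →
      x ^ 2 ≤ |t| → x ≤ u → u ≤ 2 * x →
      ‖rz (fun n => χ n * (vonMangoldt n : ℝ) * nit n t) u‖ ≤
        C * Real.log (r * |t|) * (x ^ (31 / 32 : ℝ)) ^ 2 := by
  classical
  obtain ⟨C, hC0, hL⟩ := hL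
  have hK := K0_nonneg
  refine ⟨76 * (2 * C + 1) + 48 * K0, by positivity, fun r _ χ x t u hx ht hu hu' => ?_⟩
  obtain ⟨⟨G, hGd, hGe, hGb⟩, -⟩ := hL r χ
  have hr : 1 ≤ r := NeZero.one_le
  have hr' : (1 : ℝ) ≤ r := by exact_mod_cast hr
  obtain ⟨hl1, -⟩ := one_le_log hr hx ht
  obtain ⟨y1, y2, -, y4, y5⟩ := rpow_facts (show 1 ≤ x by linarith)
  have ht4 : 4 ≤ |t| := by nlinarith
  obtain ⟨H, hH⟩ : ∃ H : ℂ → ℂ, H = fun s =>
      G (s + t * I) + if χ = 1 then 1 / (s + t * I - 1) else 0 := ⟨_, rfl⟩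
  have hHd : ∀ s : ℂ, 9 / 10 < s.re → s + t * I - 1 ≠ 0 → DifferentiableAt ℂ H s := by
    intro s hs hne
    have h1 : DifferentiableAt ℂ G (s + t * I) := hGd.differentiableAt
      ((isOpen_lt continuous_const continuous_re).mem_nhds (by simpa using hs))
    rw [hH]
    refine (h1.comp s (differentiableAt_id.add_const _)).add ?_
    split_ifs
    · exact (differentiableAt_const _).div
        ((differentiableAt_id.add_const _).sub_const _) hne
    · exact differentiableAt_const _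
  have hHe : ∀ τ : ℝ, H (2 + τ * I) =
      LSeries (fun n : ℕ => χ n * (vonMangoldt n : ℝ)) (2 + τ * I + t * I) := by
    intro τ
    rw [hH]
    simp only []
    rw [hGe _ (by simp), sub_add_cancel]
  have him : ∀ s : ℂ, |s.im| ≤ x ^ 2 / 2 → 1 ≤ ‖s + t * I - 1‖ := by
    intro s hs
    refine le_trans ?_ (abs_im_le_norm _)
    have h1 := abs_sub (s.im + t) s.im
    simp only [add_sub_cancel_left] at h1
    simp only [sub_im, add_im, mul_im, ofReal_re, I_im, mul_one, ofReal_im, I_re, mul_zero,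
      add_zero, one_im, sub_zero]
    linarith
  have h1 := hC H (15 / 16) ((2 * C + 1) * Real.log (r * |t|)) K0 u (x ^ 2 / 2) (by norm_num)
    (by norm_num) (by linarith) (by nlinarith)
    (fun s hs => (hHd s (by linarith [hs.1]) fun e => by
      have := him s hs.2.2; rw [e, norm_zero] at this; linarith).differentiableWithinAt)
    (continuous_iff_continuousAt.2 fun τ => (hHd _ (by norm_num) fun e => by
      have := congrArg re e; norm_num at this).continuousAt.comp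
        (f := fun τ : ℝ => (2 + τ * I : ℂ)) (by fun_prop))
    (fun s h₁ h₂ h₃ => ?_) (fun τ => by rw [hHe]; exact norm_L_le χ (by simp))
  · have h2 := hR (fun n => χ n * (vonMangoldt n : ℝ) * nit n t) 2 u (by norm_num) (by linarith)
      (by
        rw [LSeriesSummable, term_nit]
        exact DirichletCharacter.LSeriesSummable_twist_vonMangoldt χ (by simp))
    simp only [LSeries, term_nit, ofReal_ofNat] at h2
    simp only [hHe, LSeries] at h1
    rw [h2, norm_mul]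
    have h3 : ‖(1 / (2 * Real.pi) : ℂ)‖ ≤ 1 := by
      rw [norm_div, norm_one, norm_mul, norm_real, Real.norm_of_nonneg Real.pi_pos.le, norm_ofNat,
        div_le_one (by positivity)]
      linarith [Real.pi_gt_three]
    refine (mul_le_of_le_one_left (norm_nonneg _) h3).trans (h1.trans ?_)
    have h4 : u ^ (1 + 15 / 16 : ℝ) ≤ 4 * (x ^ (31 / 32 : ℝ)) ^ 2 := by
      refine (Real.rpow_le_rpow (by linarith) hu' (by norm_num)).trans ?_
      rw [Real.mul_rpow (by norm_num) (by linarith), y4]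
      gcongr
      refine (Real.rpow_le_rpow_of_exponent_le (by norm_num)
        (show (1 + 15 / 16 : ℝ) ≤ 2 by norm_num)).trans (by norm_num)
    have h5 : u ^ 3 / (x ^ 2 / 2) ≤ 16 * (x ^ (31 / 32 : ℝ)) ^ 2 := by
      rw [div_le_iff₀ (by positivity)]
      have := pow_le_pow_left₀ (by linarith) hu' 3
      nlinarith [mul_le_mul_of_nonneg_left y5 (sq_nonneg x)]
    generalize (x ^ (31 / 32 : ℝ)) ^ 2 = Y at h4 h5 y5 ⊢
    generalize Real.log (r * |t|) = l at hl1 ⊢
    rw [mul_div_assoc]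
    have hu0 : 0 ≤ u := by linarith
    calc _ ≤ 7 * ((2 * C + 1) * l) * (4 * Y) + 3 * ((2 * C + 1) * l + K0 * l) * (16 * Y) := by
          gcongr
          exact le_mul_of_one_le_right hK hl1
      _ = _ := by ring
  · rw [hH]
    have h2 := hGb (s + t * I) (by simpa using h₁) (by simpa using h₂)
    have h3 : Real.log (r * (|(s + t * I).im| + 2)) ≤ 2 * Real.log (r * |t|) := by
      have h4 : |(s + t * I).im| ≤ |t| + |t| := by
        simp only [add_im, mul_im, ofReal_re, I_im, mul_one, ofReal_im, I_re, mul_zero, add_zero]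
        linarith [abs_add_le s.im t]
      refine (Real.log_le_log (by positivity) (show _ ≤ (r * |t|) ^ 2 from ?_)).trans
        (by rw [Real.log_pow]; norm_num)
      rw [mul_pow]
      exact mul_le_mul (by nlinarith) (by nlinarith) (by positivity) (by positivity)
    have h4 : ‖if χ = 1 then 1 / (s + t * I - 1) else 0‖ ≤ 1 := by
      split_ifs
      · rw [norm_div, norm_one]
        exact div_le_self zero_le_one (him s h₃)
      · simp
    refine (norm_add_le _ _).trans ?_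
    nlinarith

theorem char_bound (hR : RieszStmt) (hC : ContourStmt) (hS : SharpStmt) (hL : LogLStmt) :
    ∃ C : ℝ, 0 < C ∧ ∀ (r : ℕ) [NeZero r] (χ : DirichletCharacter ℂ r) (x t : ℝ), 2 ≤ x →
      x ^ 2 ≤ |t| → ‖∑ n ∈ Icc 1 ⌊x⌋₊, χ n * (vonMangoldt n : ℝ) * nit n t‖ ≤
        C * x ^ (31 / 32 : ℝ) * Real.log (r * |t|) := by
  obtain ⟨C, hC0, h⟩ := riesz_bound hR hC hL
  refine ⟨2 * C + 2, by positivity, fun r _ χ x t hx ht => ?_⟩
  obtain ⟨hl1, hl2⟩ := one_le_log (NeZero.one_le (n := r)) hx ht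
  obtain ⟨y1, y2, -, -, -⟩ := rpow_facts (show 1 ≤ x by linarith)
  refine (hS _ x (x ^ (31 / 32 : ℝ)) (Real.log (r * |t|)) _ (by linarith) (by linarith)
    (by linarith) (fun n h1 h2 => ?_) (h r χ x t x hx ht le_rfl (by linarith))
    (h r χ x t _ hx ht (by linarith) (by linarith))).trans ?_
  · rw [norm_mul, norm_nit, mul_one, norm_mul, norm_real, Real.norm_of_nonneg vonMangoldt_nonneg]
    refine (mul_le_of_le_one_left vonMangoldt_nonneg (χ.norm_le_one _)).trans
      (vonMangoldt_le_log.trans (le_trans ?_ hl2))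
    exact Real.log_le_log (by linarith) (by linarith)
  · generalize x ^ (31 / 32 : ℝ) = y at y1 y2 ⊢
    generalize Real.log (r * |t|) = l at hl1 ⊢
    have : 2 * (C * l * y ^ 2) / y = 2 * C * y * l := by field_simp
    rw [this]
    nlinarith

theorem ap_bound {r a : ℕ} [NeZero r] (ha : Nat.Coprime a r) (s : Finset ℕ) (f : ℕ → ℂ) {M : ℝ}
    (h : ∀ χ : DirichletCharacter ℂ r, ‖∑ n ∈ s, χ n * f n‖ ≤ M) :
    ‖∑ n ∈ s, if n ≡ a [MOD r] then f n else 0‖ ≤ M := by
  have hu : IsUnit (a : ZMod r) := (ZMod.isUnit_iff_coprime a r).2 ha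
  have hφ : (0 : ℝ) < r.totient := by exact_mod_cast Nat.totient_pos.2 (NeZero.pos r)
  have h1 : (r.totient : ℂ) * ∑ n ∈ s, (if n ≡ a [MOD r] then f n else 0) =
      ∑ χ : DirichletCharacter ℂ r, χ (a : ZMod r)⁻¹ * ∑ n ∈ s, χ n * f n := by
    simp only [mul_sum]
    rw [sum_comm]
    refine sum_congr rfl fun n _ => ?_
    simp only [← mul_assoc]
    rw [← sum_mul, DirichletCharacter.sum_char_inv_mul_char_eq ℂ hu]
    simp only [ZMod.natCast_eq_natCast_iff, Nat.ModEq.comm (a := a)]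
    split_ifs <;> simp
  refine le_of_mul_le_mul_left ?_ hφ
  have h2 := congrArg norm h1
  rw [norm_mul, norm_natCast] at h2
  rw [h2]
  refine (norm_sum_le _ _).trans ((sum_le_sum (g := fun _ => M) fun χ _ => ?_).trans ?_)
  · rw [norm_mul]
    exact (mul_le_of_le_one_left (norm_nonneg _) (χ.norm_le_one _)).trans (h χ)
  · rw [sum_const, card_univ, ← Nat.card_eq_fintype_card,
      DirichletCharacter.card_eq_totient_of_hasEnoughRootsOfUnity, nsmul_eq_mul]

theorem abel (b : ℕ → ℂ) {w : ℕ → ℝ} (hw : Antitone w) (h0 : ∀ n, 0 ≤ w n) {M : ℝ} {X : ℕ}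
    (h : ∀ N ≤ X, ‖∑ n ∈ Icc 1 N, b n‖ ≤ M) : ‖∑ n ∈ Icc 1 X, w n * b n‖ ≤ M * w 0 := by
  have key : ∀ N ≤ X, ‖∑ n ∈ Icc 1 N, w n * b n - w N * ∑ n ∈ Icc 1 N, b n‖ ≤ M * (w 0 - w N) := by
    intro N
    induction N with
    | zero => intro _; simp
    | succ N ih =>
      intro hN
      have e : ∑ n ∈ Icc 1 (N + 1), w n * b n - w (N + 1) * ∑ n ∈ Icc 1 (N + 1), b n =
          (∑ n ∈ Icc 1 N, w n * b n - w N * ∑ n ∈ Icc 1 N, b n) +
            ((w N - w (N + 1) : ℝ) : ℂ) * ∑ n ∈ Icc 1 N, b n := by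
        rw [sum_Icc_succ_top (by omega), sum_Icc_succ_top (by omega)]; push_cast; ring
      have h1 : 0 ≤ w N - w (N + 1) := sub_nonneg.2 (hw (Nat.le_succ N))
      rw [e]
      refine (norm_add_le _ _).trans ?_
      rw [norm_mul, norm_real, Real.norm_of_nonneg h1]
      have h2 := mul_le_mul_of_nonneg_left (h N (by omega)) h1
      have h3 := ih (by omega)
      linarith
  have h1 := norm_add_le (∑ n ∈ Icc 1 X, w n * b n - w X * ∑ n ∈ Icc 1 X, b n)
    (w X * ∑ n ∈ Icc 1 X, b n)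
  rw [sub_add_cancel, norm_mul, norm_real, Real.norm_of_nonneg (h0 X)] at h1
  have h2 := mul_le_mul_of_nonneg_left (h X le_rfl) (h0 X)
  have h3 := key X le_rfl
  linarith

theorem prime_pow (r a N : ℕ) (hN : 1 ≤ N) (t : ℝ) :
    ‖∑ n ∈ Icc 1 N, (if n.Prime ∧ n ≡ a [MOD r] then (Real.log n : ℂ) * nit n t else 0)‖ ≤
      ‖∑ n ∈ Icc 1 N, if n ≡ a [MOD r] then (vonMangoldt n : ℝ) * nit n t else 0‖ +
        2 * √N * Real.log N := by
  have h1 := Chebyshev.psi_sub_theta_le (x := N) (by exact_mod_cast hN)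
  rw [Chebyshev.psi_sub_theta_eq_sum_not_prime, Nat.floor_natCast, sum_filter] at h1
  refine (norm_le_insert' _ _).trans (add_le_add le_rfl (le_trans ?_ h1))
  rw [← sum_sub_distrib]
  refine (norm_sum_le _ _).trans (sum_le_sum fun n _ => ?_)
  by_cases hp : n.Prime
  · simp [hp, vonMangoldt_apply_prime hp]
  · by_cases h : n ≡ a [MOD r] <;> simp [hp, h, norm_nit, abs_of_nonneg vonMangoldt_nonneg]

end Prime


end Crest.Agent.R8
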