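import Crest.Prelude.Def_Pretentious
import Crest.Agent.PVc.R5.Defs

/-! Row 8 (two-point Chowla with a power of `log` saved, two-point Elliott): definitions and the
statements of the modules.

* Part A: the graph `n → n + h p₁⋯p_J e` with `J` groups of top primes (`GraphJStmt`).
* Part B: averaged Chowla for `λ` (`MRT8Stmt`) from a zero-free half plane (`ZFStmt`).
* Part C: averaged Elliott over prime shifts (`MRT9Stmt`), used with `R5.GraphStmt`. -/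

set_option autoImplicit false

namespace Crest.Agent.R8

open Finset Filter MeasureTheory
open Crest.Agent.R5 Crest.NumberTheoryR.Pretentious

/-! ## Part A: the graph with `J` top primes -/

/-- parameters of the graph -/
structure GP where
  /-- number of groups of top primes -/
  J : ℕ
  /-- the groups of top primes -/
  S : Fin J → Finset ℕ
  /-- filler primes -/
  F : Finset ℕ
  /-- small filler primes -/
  Fs : Finset ℕ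
  z : ℝ
  H0 : ℕ
  D : ℕ
  ε : ℝ
  κ : ℝ
  k0 : ℕ
  L : ℝ
  y : ℝ

namespace GP

variable (G : GP)

/-- tuples of top primes -/
def tops : Finset (Fin G.J → ℕ) := Fintype.piFinset G.S

/-- half the length of the walks -/
noncomputable def k : ℕ := ⌈3 * Real.log G.D⌉₊

/-- the step of a label -/
def dl (l : (Fin G.J → ℕ) × Finset ℕ) : ℕ := (∏ j, l.1 j) * pd l.2

/-- the window condition -/
def win (π : Fin G.J → ℕ) (s : Finset ℕ) : Prop :=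
  G.D ≤ G.dl (π, s) ∧ (G.dl (π, s) : ℝ) ≤ (1 + G.ε) * G.D ∧ pd (s ∩ G.Fs) < G.H0

open Classical in
/-- edge labels -/
noncomputable def lab : Finset ((Fin G.J → ℕ) × Finset ℕ) :=
  (G.tops ×ˢ G.F.powerset).filter (fun l => G.win l.1 l.2)

/-- the filler primes dividing `n` -/
def pat (n : ℤ) : Finset ℕ := G.F.filter (fun q => (q : ℤ) ∣ n)

/-- vertex weight -/
noncomputable def Wt (T : Finset ℕ) : ℝ := G.κ * (1 + G.z) ^ T.card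

open Classical in
/-- weighted number of window divisors -/
noncomputable def Nc (π : Fin G.J → ℕ) (T : Finset ℕ) : ℝ :=
  ∑ s ∈ T.powerset.filter (fun s => G.win π s), G.z ^ s.card

/-- good (vertex pattern, label) pairs -/
def ok (T : Finset ℕ) (l : (Fin G.J → ℕ) × Finset ℕ) : Prop :=
  G.Nc l.1 T ≤ G.Wt T ∧ G.k0 ≤ ((T ∩ G.Fs) \ l.2).card


/-- the centred factor -/
noncomputable def cen (π : Fin G.J → ℕ) (n : ℤ) : ℝ := ∏ j, (dv (π j) n - 1 / (π j : ℝ))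


/-- the profile sum -/
noncomputable def Prof : ℝ :=
  ∑ j ∈ range (Nat.log 2 G.D + 2),
    Real.exp (-(3 / 2) * ∑ q ∈ G.F.filter (fun q => 2 ^ (j + 1) < q), 1 / (q : ℝ)) /
      ((j : ℝ) + 1) ^ 2






open Classical in
/-- the centred sum over the good edges -/
noncomputable def goodSum (h X : ℕ) (c : (Fin G.J → ℕ) × Finset ℕ → ℝ) (u v : ℕ → ℝ) : ℝ :=
  ∑ l ∈ G.lab, G.z ^ l.2.card * c l * ∑ n ∈ Icc 1 (X * G.D),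
    if pd l.2 ∣ n ∧ G.ok (G.pat n) l ∧ G.ok (G.pat ((n + h * G.dl l : ℕ) : ℤ)) l then
      G.cen l.1 n * u n * v (n + h * G.dl l) else 0


/-- the standing hypotheses -/
structure WF (h : ℕ) : Prop where
  primeS : ∀ j, ∀ p ∈ G.S j, p.Prime ∧ G.H0 ≤ p ∧ p ≤ G.D ^ 2
  disjS : ∀ i j, i ≠ j → Disjoint (G.S i) (G.S j)
  primeF : ∀ q ∈ G.F, q.Prime ∧ 3 * G.z ≤ q ∧ q ≤ G.D ^ 2
  disjF : ∀ j, Disjoint (G.S j) G.F
  sub : G.Fs ⊆ G.F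
  z_ge : 15 ≤ G.z
  ε_pos : 0 < G.ε
  ε_le : G.ε ≤ 1
  κ_pos : 0 < G.κ
  L_ge : 1 ≤ G.L
  sumS : ∀ j, ∑ p ∈ G.S j, 1 / (p : ℝ) ≤ G.L
  y_ge : 1 ≤ G.y
  big : ∀ π ∈ G.tops, ((∏ j, π j : ℕ) : ℝ) * Real.exp G.y ≤ G.D
  h_pos : 1 ≤ h
  h_lt : h < G.H0
  k_le : 2 * G.k ≤ G.H0
  H_le : G.H0 ≤ G.D
  J_le : (G.J : ℝ) + 1 ≤ Real.log G.D
  zF : G.z ^ 2 * ∑ q ∈ G.F, 1 / (q : ℝ) ≤ Real.log G.D
  k0_le : (G.k0 : ℝ) ≤ (∑ q ∈ G.Fs, 1 / (q : ℝ)) / 4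
  tau : 2 * (2 * G.k : ℕ) * (G.J : ℝ) * (1 + (2 * G.k : ℕ)) ^ G.J ≤ G.κ * (1 + G.z) ^ G.k0
  D_ge : 1000 ≤ Real.log G.D

/-- the hypotheses of the pigeonhole choice of `D` -/
structure MassHyp (Y U V : ℝ) : Prop where
  posS : ∀ j, ∀ p ∈ G.S j, 1 ≤ p
  posF : ∀ q ∈ G.F, 1 ≤ q
  sub : G.Fs ⊆ G.F
  z_nonneg : 0 ≤ G.z
  ε_pos : 0 < G.ε
  ε_le : G.ε ≤ 1
  H_ge : 2 ≤ G.H0
  Y_ge : 1 ≤ Y
  U_ge : 1 ≤ U
  V_ge : 0 ≤ V
  small : G.z * ∑ q ∈ G.Fs, Real.log q / q ≤ Real.log G.H0 / 8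
  all : G.z * ∑ q ∈ G.F, Real.log q / q ≤ U / 8
  large : 2 ≤ ∏ q ∈ G.F.filter (fun q : ℕ => Y ≤ (q : ℝ)), (1 + G.z / (q : ℝ))
  top : ∀ π ∈ G.tops, ((∏ j, π j : ℕ) : ℝ) ≤ Real.exp V

end GP









/-- the choice of the parameters -/
def ParamStmt : Prop :=
  ∃ C : ℝ, 1 ≤ C ∧ ∀ L A₁ : ℝ, 2 ≤ L → ∃ A₀ : ℝ, A₁ ≤ A₀ ∧ ∀ h A : ℕ, 1 ≤ h →
    ∀ᶠ J : ℕ in atTop, ∃ (G : GP) (Y U V : ℝ),
      G.J = J ∧ G.L = L + 1 ∧ G.z = Real.exp (20 * J) ∧ G.ε = Real.exp (-(J : ℝ)) ∧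
      G.κ = Real.exp (44 * J) / Real.exp (A₀ * J) ∧ G.y = Real.exp (A₀ * J) / 4 ∧
      (∀ j, L - 1 ≤ ∑ p ∈ G.S j, 1 / (p : ℝ)) ∧ Real.exp (A₀ * J / 2) ≤ Real.log G.H0 ∧
      A < G.H0 ∧ (∀ q ∈ G.F, A < q) ∧ 220 * (J : ℝ) ≤ ∑ q ∈ G.Fs, 1 / (q : ℝ) ∧
      G.MassHyp Y U V ∧ U + V ≤ C * G.z * Real.exp (A₀ * J) ∧
      Real.exp (A₀ * J) / 2 ≤ Real.log Y ∧
      ∀ D : ℕ, Y ≤ D → (D : ℝ) ≤ Real.exp (U + V) →
        ({ G with D := D } : GP).WF h ∧ ({ G with D := D } : GP).Prof ≤ C / Real.exp (A₀ * J)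


/-- the Liouville function -/
noncomputable def PV.lam (n : ℕ) : ℝ := ((ArithmeticFunction.liouville n : ℤ) : ℝ)
export PV (lam)


/-! ## Perron's formula for Riesz means -/

/-- Riesz mean of order one -/
noncomputable def rz (a : ℕ → ℂ) (x : ℝ) : ℂ := ∑ n ∈ Icc 1 ⌊x⌋₊, a n * ((x - n : ℝ) : ℂ)

def RieszStmt : Prop :=
  ∀ (a : ℕ → ℂ) (c x : ℝ), 1 ≤ c → 1 ≤ x → LSeriesSummable a (c : ℂ) →
    rz a x = (1 / (2 * Real.pi) : ℂ) * ∫ τ : ℝ, LSeries a (c + τ * Complex.I) *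
      (x : ℂ) ^ ((c : ℂ) + 1 + τ * Complex.I) / ((c + τ * Complex.I) * (c + 1 + τ * Complex.I))

def ContourStmt : Prop :=
  ∀ (G : ℂ → ℂ) (σ K K' x T : ℝ), 1 / 2 ≤ σ → σ ≤ 2 → 1 ≤ x → 1 ≤ T →
    DifferentiableOn ℂ G {s | σ ≤ s.re ∧ s.re ≤ 2 ∧ |s.im| ≤ T} →
    Continuous (fun τ : ℝ => G (2 + τ * Complex.I)) →
    (∀ s : ℂ, σ ≤ s.re → s.re ≤ 2 → |s.im| ≤ T → ‖G s‖ ≤ K) →
    (∀ τ : ℝ, ‖G (2 + τ * Complex.I)‖ ≤ K') →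
    ‖∫ τ : ℝ, G (2 + τ * Complex.I) * (x : ℂ) ^ ((2 : ℂ) + 1 + τ * Complex.I) /
        ((2 + τ * Complex.I) * (2 + 1 + τ * Complex.I))‖ ≤
      7 * K * x ^ (1 + σ) + 3 * (K + K') * x ^ 3 / T

def SharpStmt : Prop :=
  ∀ (a : ℕ → ℂ) (x y B E : ℝ), 0 ≤ x → 0 < y → 0 ≤ B →
    (∀ n : ℕ, x < n → (n : ℝ) ≤ x + y → ‖a n‖ ≤ B) → ‖rz a x‖ ≤ E → ‖rz a (x + y)‖ ≤ E →
    ‖∑ n ∈ Icc 1 ⌊x⌋₊, a n‖ ≤ 2 * E / y + B * (y + 1)

/-! ## Part B: consequences of a zero-free half plane -/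

/-- the statement of S0022 -/
def ZFStmt : Prop :=
  ∀ (N : ℕ) [NeZero N] (χ : DirichletCharacter ℂ N) (s : ℂ), (χ ≠ 1 ∨ s ≠ 1) → 7 / 8 < s.re →
    χ.LFunction s ≠ 0

def GrowthStmt : Prop :=
  ∃ C : ℝ, 0 < C ∧ ∀ (r : ℕ) [NeZero r] (χ : DirichletCharacter ℂ r) (s : ℂ), 1 / 2 ≤ s.re →
    ‖(s - 1) * χ.LFunction s‖ ≤ C * r * (‖s‖ + 1) ^ 2 ∧
      (χ ≠ 1 → ‖χ.LFunction s‖ ≤ C * r * (‖s‖ + 1))

open Classical in
def LogLStmt : Prop :=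
  ∃ C : ℝ, 0 < C ∧ ∀ (r : ℕ) [NeZero r] (χ : DirichletCharacter ℂ r),
    (∃ G : ℂ → ℂ, DifferentiableOn ℂ G {s | 9 / 10 < s.re} ∧
      (∀ s : ℂ, 1 < s.re → G s =
        LSeries (fun n : ℕ => χ n * (ArithmeticFunction.vonMangoldt n : ℝ)) s -
          (if χ = 1 then 1 / (s - 1) else 0)) ∧
      ∀ s : ℂ, 15 / 16 ≤ s.re → s.re ≤ 2 → ‖G s‖ ≤ C * Real.log (r * (|s.im| + 2))) ∧
    (∃ G : ℂ → ℂ, DifferentiableOn ℂ G {s | 9 / 10 < s.re} ∧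
      (∀ s : ℂ, 1 < s.re → G s = LSeries (fun n : ℕ => χ n * (lam n : ℝ)) s) ∧
      ∀ s : ℂ, 15 / 16 ≤ s.re → s.re ≤ 2 → ‖G s‖ ≤ C * (r * (|s.im| + 2)) ^ (1 / 100 : ℝ))




/-- indicator of the integers with a divisor in `S` -/
noncomputable def ind (S : Finset ℕ) (n : ℕ) : ℝ := if 0 < om S n then 1 else 0

/-- the primes for the minor arcs -/
noncomputable def S1 (P : ℕ) : Finset ℕ :=
  pr (Real.exp (Real.log P ^ (1 / 5 : ℝ))) (Real.exp (Real.log P ^ (2 / 5 : ℝ)))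

/-- the primes for the major arcs -/
noncomputable def S2 (P : ℕ) : Finset ℕ :=
  pr (Real.exp (Real.log P ^ (3 / 5 : ℝ))) (Real.exp (Real.log P ^ (4 / 5 : ℝ)))

/-- `λ` restricted to the integers with prime factors in both ranges -/
noncomputable def u8 (P n : ℕ) : ℝ := lam n * ind (S1 P) n * ind (S2 P) n

/-- Ramaré coefficients -/
noncomputable def a8 (P N r b n : ℕ) : ℝ :=
  ∑ q ∈ (S2 P).filter (fun q => q ∣ n),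
    if N / (2 * 2 ^ Nat.log 2 q) < n / q ∧ n / q ≤ 16 * (N / (2 * 2 ^ Nat.log 2 q)) ∧
        n ≡ b [MOD r] then lam n * ind (S1 P) n / (1 + om (S2 P) (n / q)) else 0





/-! ## Part C: nonpretentious functions -/

/-- bounded and completely multiplicative at the primes `> w` -/
structure CMw (w : ℕ) (f : ℕ → ℂ) : Prop where
  norm_le : ∀ n, ‖f n‖ ≤ 1
  mul : ∀ q m : ℕ, q.Prime → w < q → 1 ≤ m → f (q * m) = f q * f m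

/-- bounded and completely multiplicative -/
structure CM (G : ℕ → ℂ) : Prop where
  norm_le : ∀ n, ‖G n‖ ≤ 1
  mul : ∀ m n : ℕ, 1 ≤ m → 1 ≤ n → G (m * n) = G m * G n

/-- Selberg's weights -/
def SelbergStmt : Prop :=
  ∀ (S : Finset ℕ) (g : ℕ → ℝ) (R : ℝ), (∀ q ∈ S, 1 ≤ q ∧ 0 ≤ g q ∧ g q < 1) → 1 < R →
    ∑ q ∈ S, g q * Real.log q ≤ Real.log R / 2 →
    ∃ l : Finset ℕ → ℝ, l ∅ = 1 ∧ (∀ s, |l s| ≤ 1) ∧ (∀ s, l s ≠ 0 → (pd s : ℝ) ≤ R) ∧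
      0 ≤ ∑ s₁ ∈ S.powerset, ∑ s₂ ∈ S.powerset, l s₁ * l s₂ * ∏ q ∈ s₁ ∪ s₂, g q ∧
      ∑ s₁ ∈ S.powerset, ∑ s₂ ∈ S.powerset, l s₁ * l s₂ * ∏ q ∈ s₁ ∪ s₂, g q ≤
        2 * ∏ q ∈ S, (1 - g q)

/-- additive energy -/
def en (K : Finset ℕ) : ℕ :=
  (((K ×ˢ K) ×ˢ (K ×ˢ K)).filter (fun x => x.1.1 + x.1.2 = x.2.1 + x.2.2)).card









/-- coefficients with two prime factors pulled out -/
noncomputable def a9 (f : ℕ → ℂ) (S S' : Finset ℕ) (N r b n : ℕ) : ℂ :=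
  ∑ q ∈ S.filter (fun q => q ∣ n), ∑ q' ∈ S'.filter (fun q' => q' ∣ n),
    if N / (4 * 2 ^ Nat.log 2 q * 2 ^ Nat.log 2 q') < n / (q * q') ∧
        n / (q * q') ≤ 32 * (N / (4 * 2 ^ Nat.log 2 q * 2 ^ Nat.log 2 q')) ∧ n ≡ b [MOD r] then
      f n else 0











end Crest.Agent.R8
-- keep-prune
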