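import Crest.Agent.PVc.R8.Defs

/-! Row 8, part V: an unconditional proof of `MRT8Stmt` (weak Vinogradov mean value theorem,
zero-free region, three-range Matomäki–Radziwiłł). -/

set_option autoImplicit false

namespace Crest.Agent.R8

open Finset Filter MeasureTheory
open Crest.Agent.R5

/-! ## Vinogradov's method -/


/-- `min (Y, 1 / (2 ‖x‖))` -/
noncomputable def mn (Y x : ℝ) : ℝ := Y / max 1 (2 * Y * |x - round x|)





def MinSumStmt : Prop :=
  ∃ C : ℝ, 0 < C ∧ ∀ (α Y : ℝ) (a m₀ : ℤ) (k M : ℕ), 1 ≤ k → IsCoprime a (k : ℤ) →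
    |α - a / k| ≤ 1 / (k : ℝ) ^ 2 → 1 ≤ Y →
    ∑ m ∈ Ico m₀ (m₀ + M), mn Y (α * m) ≤ C * (M / k + 1) * (Y + k * Real.log (2 * k))


/-! ## The zero-free region -/











/-! ## Short sums -/



/-- the large primes -/
noncomputable def S3 (X : ℕ) : Finset ℕ :=
  pr (Real.exp (Real.log X ^ (98 / 100 : ℝ))) (Real.exp (Real.log X ^ (99 / 100 : ℝ)))







end Crest.Agent.R8
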